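import Vale.Agent.P192.Width.Sep

/-!
P192: orbits of bounded tree-width are uniformly bounded.
-/

namespace Vale.Agent.P192.Width

open Vale.Agent.P192.Thin Relation

universe u v w

variable {G : Type u} [Group G]

theorem exists_word (S : Finset G) (hgen : Subgroup.closure (S : Set G) = ⊤) (g : G) :
    ∃ w : List G, (∀ a ∈ w, a ∈ S ∨ a⁻¹ ∈ S) ∧ w.prod = g := by
  have hg : g ∈ (Subgroup.closure (S : Set G)).toSubmonoid := by rw [hgen]; trivial
  rw [Subgroup.closure_toSubmonoid] at hg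
  obtain ⟨w, hw, rfl⟩ := Submonoid.exists_list_of_mem_closure hg
  exact ⟨w, fun a ha => by simpa using hw a ha, rfl⟩

/-- The letter boundary lies within boundedly many translates of the generator boundary. -/
theorem letters_bdry {A : Type*} [Finite A] (π : FreeGroup A →* G) (S : Finset G)
    (hgen : Subgroup.closure (S : Set G) = ⊤) :
    ∃ P : Finset G, ∀ (X : Type v) [MulAction G X] (D : Set X) (T : Finset X),
      (∀ z ∈ D, (∃ s ∈ S, s • z ∉ D ∨ s⁻¹ • z ∉ D) → z ∈ T) →
      ∀ z ∈ bdry π D, ∃ p ∈ P, ∃ t ∈ T, p • t = z := by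
  classical
  have := Fintype.ofFinite A
  choose W hW hWp using fun l : A × Bool => exists_word S hgen (π (FreeGroup.mk [l]))
  let P : Finset G := Finset.univ.biUnion fun l => ((W l).tails ++
    (W l).tails.flatMap fun v => (W l).map fun g => g :: v).toFinset.image fun v => v.prod⁻¹
  refine ⟨P, fun X _ D T hT => ?_⟩
  rintro x ⟨hx, l, hl⟩
  have h1 : ¬ ((W l).prod • x ∈ D ↔ x ∈ D) := by
    rw [hWp]
    exact fun e => hl (e.2 hx)
  obtain ⟨v, hv, g, hg, hc⟩ := exists_cross S (hW l) h1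
  by_cases hvx : v.prod • x ∈ D
  · have hgv : g • v.prod • x ∉ D := fun e => hc ⟨fun _ => hvx, fun _ => e⟩
    refine ⟨v.prod⁻¹, ?_, _, hT _ hvx ?_, inv_smul_smul _ x⟩
    · simp only [P, Finset.mem_biUnion, Finset.mem_univ, true_and, Finset.mem_image,
        List.mem_toFinset, List.mem_append, List.mem_tails]
      exact ⟨l, v, Or.inl hv, rfl⟩
    rcases hW l g hg with hgS | hgS
    · exact ⟨g, hgS, Or.inl hgv⟩
    · exact ⟨g⁻¹, hgS, Or.inr (by rwa [inv_inv])⟩
  · have hgv : g • v.prod • x ∈ D := by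
      by_contra e
      exact hc ⟨fun h => absurd h e, fun h => absurd h hvx⟩
    refine ⟨(g :: v).prod⁻¹, ?_, _, hT _ hgv ?_, ?_⟩
    · simp only [P, Finset.mem_biUnion, Finset.mem_univ, true_and,
        Finset.mem_image, List.mem_toFinset, List.mem_append, List.mem_tails, List.mem_flatMap,
        List.mem_map]
      exact ⟨l, g :: v, Or.inr ⟨v, hv, g, hg, rfl⟩, rfl⟩
    · rcases hW l g hg with hgS | hgS
      · exact ⟨g, hgS, Or.inr (by rwa [inv_smul_smul])⟩
      · exact ⟨g⁻¹, hgS, Or.inl (by rwa [inv_smul_smul])⟩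
    · rw [List.prod_cons, ← mul_smul g, inv_smul_smul]

/-- In a finitely presented periodic group the orbits of bounded tree-width are uniformly bounded. -/
theorem orbit_bound [Group.IsFinitelyPresented G] (htor : ∀ g : G, IsOfFinOrder g) (S : Finset G)
    (hgen : Subgroup.closure (S : Set G) = ⊤) (k : ℕ) :
    ∃ B : ℕ, ∀ (X : Type v) [MulAction G X] (x : X) (T : Type w) (H : SimpleGraph T)
      (bag : T → Finset X), Deco S x k H bag →
        (MulAction.orbit G x).Finite ∧ (MulAction.orbit G x).ncard ≤ B := by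
  classical
  obtain ⟨n, π, Rel, hπ, hRel, hRelπ, hs⟩ := exists_sum_presentation S
  obtain ⟨L, hL'⟩ := (hRel.image fun s => s.toWord.length).bddAbove
  set R := max L 2
  have hL : ∀ s ∈ Rel, s.toWord.length ≤ R := fun s hs =>
    (hL' ⟨s, hs, rfl⟩).trans (le_max_left _ _)
  obtain ⟨P, hP⟩ := letters_bdry.{u, v} π S hgen
  have hfin := List.finite_length_le ((Fin n ⊕ S) × Bool) (4 * R)
  let Q : Finset G := insert 1 ((hfin.toFinset ×ˢ P).image fun q => π (FreeGroup.mk q.1) * q.2)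
  let K : ℕ := 4 * S.card * k + 1
  let K' : ℕ := P.card * K
  let Wd := {w : List ((Fin n ⊕ S) × Bool) // w.length ≤ 2 * R}
  have : Finite Wd := (List.finite_length_le ((Fin n ⊕ S) × Bool) (2 * R)).to_subtype
  let Ty := (Fin K' × Wd → Fin K' × Wd → Prop) ×
      (((Fin n ⊕ S) × Bool) → Fin K' × Wd → Fin K' × Wd → Prop) × (Fin K' × Wd → Prop)
  let J : ℕ := Nat.card Ty + 1
  let N : ℕ := need S.card k Q.card K J
  refine ⟨N, fun X _ x T H bag hd => ?_⟩
  suffices hsmall : ∀ W : Finset X, ↑W ⊆ MulAction.orbit G x → W.card < N by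
    have hfinO : (MulAction.orbit G x).Finite := by
      by_contra h
      obtain ⟨W, hW, hWc⟩ := Set.Infinite.exists_subset_card_eq h N
      exact absurd hWc (hsmall W hW).ne
    refine ⟨hfinO, ?_⟩
    rw [Set.ncard_eq_toFinset_card _ hfinO]
    exact (hsmall _ (by simp)).le
  intro W hW
  by_contra hWc
  push Not at hWc
  set O := MulAction.orbit G x
  have hconnO : ∀ a ∈ O, ∀ b ∈ O, ReflTransGen (GStep S O) a b := by
    intro a ha b hb
    obtain ⟨g, rfl⟩ : ∃ g : G, g • a = b := by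
      rw [← MulAction.mem_orbit_iff, MulAction.orbit_eq_iff.2 ha]
      exact hb
    obtain ⟨l, hl, rfl⟩ := exists_word S hgen g
    clear hb
    induction l with
    | nil => rw [List.prod_nil, one_smul]
    | cons e l ih =>
      refine (ih fun c hc => hl c (List.mem_cons_of_mem _ hc)).tail
        ⟨smul_orbit ha _, smul_orbit ha _, ?_⟩
      rw [List.prod_cons, mul_smul]
      rcases hl e List.mem_cons_self with h | h
      · exact ⟨e, h, Or.inl rfl⟩
      · exact ⟨e⁻¹, h, Or.inr (inv_smul_smul e _)⟩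
  have hstart : Piece S x K O {x} := by
    refine ⟨subset_rfl, hconnO, ⟨x, MulAction.mem_orbit_self x⟩, ?_, ?_, ?_⟩
    · simp [K]
    · simp
    · rintro z hz ⟨s, -, h | h⟩
      · exact absurd (smul_orbit hz s) h
      · exact absurd (smul_orbit hz s⁻¹) h
  have hnext : ∀ D T₁, Piece S x K D T₁ → (∀ f ∈ ({x} : Finset X), f ∉ D) → D ⊆ O →
      ∃ f ∈ T₁, f ∈ D := by
    rintro D T₁ ⟨-, -, ⟨d, hd'⟩, -, -, hT₁⟩ hx hDO
    obtain ⟨g, hg⟩ : ∃ g : G, g • d = x := by
      rw [← MulAction.mem_orbit_iff, MulAction.orbit_eq_iff.2 (hDO hd')]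
      exact MulAction.mem_orbit_self x
    obtain ⟨l, hl, rfl⟩ := exists_word S hgen g
    have hxD : x ∉ D := hx x (Finset.mem_singleton_self x)
    obtain ⟨v, -, e, he, hc⟩ :=
      exists_cross S (D := D) (y := d) hl fun h => hxD (hg ▸ h.2 hd')
    by_cases hvd : v.prod • d ∈ D
    · refine ⟨_, hT₁ _ hvd ?_, hvd⟩
      have hev : e • v.prod • d ∉ D := fun h => hc ⟨fun _ => hvd, fun _ => h⟩
      rcases hl e he with h | h
      · exact ⟨e, h, Or.inl hev⟩
      · exact ⟨e⁻¹, h, Or.inr (by rwa [inv_inv])⟩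
    · have hev : e • v.prod • d ∈ D := by
        by_contra h
        exact hc ⟨fun h' => absurd h' h, fun h' => absurd h' hvd⟩
      refine ⟨_, hT₁ _ hev ?_, hev⟩
      rcases hl e he with h | h
      · exact ⟨e, h, Or.inr (by rwa [inv_smul_smul])⟩
      · exact ⟨e⁻¹, h, Or.inl (by rwa [inv_smul_smul])⟩
  obtain ⟨D, Tb, hD⟩ := chain hd Q (Finset.mem_insert_self _ _) J O {x} hstart
    ⟨x, by simp, MulAction.mem_orbit_self x⟩ hnext W hW hWc
  have hbfin : ∀ j < J, bdry π (D j) ⊆ ↑((P ×ˢ Tb j).image fun q => q.1 • q.2) := by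
    intro j hj z hz
    obtain ⟨p, hp, t, ht, e⟩ := hP X (D j) (Tb j) (hD j hj).1.2.2.2.2.2 z hz
    exact Finset.mem_image.2 ⟨(p, t), Finset.mk_mem_product hp ht, e⟩
  have hbne : ∀ j < J, (bdry π (D j)).Nonempty := by
    intro j hj
    obtain ⟨⟨-, -, ⟨d, hd'⟩, -, -, -⟩, hjO, hx, -⟩ := hD j hj
    by_contra h
    have hclosed := Set.not_nonempty_iff_eq_empty.1 h
    obtain ⟨g, hg⟩ : ∃ g : G, g • d = x := by
      rw [← MulAction.mem_orbit_iff, MulAction.orbit_eq_iff.2 (hjO hd')]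
      exact MulAction.mem_orbit_self x
    obtain ⟨y, rfl⟩ := hπ g
    have hy : act π y.toWord d ∈ D j := by
      by_contra hout
      obtain ⟨z, hz, -⟩ := near_bdry (π := π) (D := D j) (y := d) fun e => hout (e.2 hd')
      rw [hclosed] at hz
      exact hz
    refine hx 1 (Finset.mem_insert_self _ _) x (Finset.mem_singleton_self x) ?_
    rw [one_smul]
    rwa [act, FreeGroup.mk_toWord, hg] at hy
  have henum : ∀ j : Fin J, ∃ e : Fin K' → X, Set.range e = bdry π (D j) := by
    intro j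
    have hsub := hbfin j j.2
    have hf : (bdry π (D j)).Finite := (Finset.finite_toSet _).subset hsub
    have := hf.fintype
    have hcard : (bdry π (D j)).ncard ≤ K' := by
      refine (Set.ncard_le_ncard hsub (Finset.finite_toSet _)).trans ?_
      rw [Set.ncard_coe_finset]
      refine Finset.card_image_le.trans ?_
      rw [Finset.card_product]
      exact Nat.mul_le_mul_left _ (hD j j.2).1.2.2.2.1
    obtain ⟨ι⟩ := Function.Embedding.nonempty_of_card_le
      (show Fintype.card (bdry π (D j)) ≤ Fintype.card (Fin K') by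
        rw [Fintype.card_fin, ← Nat.card_eq_fintype_card, Nat.card_coe_set_eq]; exact hcard)
    have : Nonempty (bdry π (D j)) := (hbne j j.2).to_subtype
    refine ⟨fun i => Subtype.val (Function.invFun (⇑ι) i), ?_⟩
    ext z
    constructor
    · rintro ⟨i, rfl⟩; exact Subtype.mem _
    · intro hz
      exact ⟨ι ⟨z, hz⟩, by simp [Function.leftInverse_invFun ι.injective ⟨z, hz⟩]⟩
  choose e he using henum
  let type : Fin J → Ty := fun j =>
    (fun a b => act π a.2.1 (e j a.1) = act π b.2.1 (e j b.1),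
      fun l a b => act π [l] (act π a.2.1 (e j a.1)) = act π b.2.1 (e j b.1),
      fun a => act π a.2.1 (e j a.1) ∈ D j)
  obtain ⟨i, j, hij, htype⟩ : ∃ i j, i ≠ j ∧ type i = type j := by
    by_contra h
    push Not at h
    have := Nat.card_le_card_of_injective type fun i j e => by
      by_contra hne
      exact h i j hne e
    rw [Nat.card_eq_fintype_card, Fintype.card_fin] at this
    simp only [J] at this
    omega
  wlog hlt : (i : ℕ) < j generalizing i j
  · exact this j i hij.symm htype.symm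
      (lt_of_le_of_ne (not_lt.1 hlt) fun h => hij (Fin.ext h.symm))
  have h1 : (type i).1 = (type j).1 := congrArg Prod.fst htype
  have h2 : (type i).2.1 = (type j).2.1 := congrArg (fun q => q.2.1) htype
  have h3 : (type i).2.2 = (type j).2.2 := congrArg (fun q => q.2.2) htype
  obtain ⟨hPi, -, -, -⟩ := hD i i.2
  obtain ⟨hPj, -, -, hji⟩ := hD j j.2
  obtain ⟨hsub, hfar⟩ := hji i hlt
  have hfar' : ∀ z ∈ nb π (4 * R) (bdry π (D i)), z ∉ D j := by
    rintro _ ⟨z, hz, l, hl, rfl⟩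
    obtain ⟨p, hp, t, ht, rfl⟩ := hP X (D i) (Tb i) hPi.2.2.2.2.2 z hz
    rw [act, smul_smul]
    exact hfar _ (Finset.mem_insert_of_mem (Finset.mem_image.2 ⟨(l, p),
      Finset.mk_mem_product (hfin.mem_toFinset.2 hl) hp, rfl⟩)) t ht
  obtain ⟨Pr⟩ := exists_pair (R := R) (le_max_of_le_right (by omega)) (e i) (e j) (he i) (he j)
    hsub hfar'
    (fun a b w v hw hv => iff_of_eq (congrFun₂ h1 (a, ⟨w, hw⟩) (b, ⟨v, hv⟩)))
    (fun a b l w v hw hv => iff_of_eq (congrFun (congrFun₂ h2 l (a, ⟨w, hw⟩)) (b, ⟨v, hv⟩)))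
    (fun a w hw => iff_of_eq (congrFun h3 (a, ⟨w, hw⟩)))
  refine Pr.false hπ hRelπ hL (le_max_right _ _) htor
    ((Finset.finite_toSet _).subset (hbfin i i.2)) (hbne i i.2) hPj.2.2.1 ?_
  intro a ha b hb
  refine ReflTransGen.mono ?_ _ _ (hPi.2.1 a ha b hb)
  rintro p q ⟨hp, hq, s, hsS, h | h⟩
  · refine ⟨hp, hq, (Sum.inr ⟨s, hsS⟩, true), ?_⟩
    show π (FreeGroup.of (Sum.inr ⟨s, hsS⟩)) • p = q
    rw [hs]; exact h
  · refine ⟨hp, hq, (Sum.inr ⟨s, hsS⟩, false), ?_⟩
    have e' : FreeGroup.mk [((Sum.inr ⟨s, hsS⟩ : Fin n ⊕ S), false)] =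
        (FreeGroup.of (Sum.inr ⟨s, hsS⟩))⁻¹ := by
      rw [FreeGroup.of, FreeGroup.inv_mk]; rfl
    show π (FreeGroup.mk _) • p = q
    rw [e', map_inv, hs, inv_smul_eq_iff]
    exact h.symm

end Vale.Agent.P192.Width
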