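import Vale.Agent.P192.Width.Bound

/-!
P192: all orbits of bounded tree-width factor through one finite quotient.
-/

namespace Vale.Agent.P192.Width

universe u v w

variable {G : Type u} [Group G]

/-- One subgroup of finite index fixes every point whose orbit has tree-width below the bound. -/
theorem exists_kernel [Group.IsFinitelyPresented G] (htor : ∀ g : G, IsOfFinOrder g)
    (S : Finset G) (hgen : Subgroup.closure (S : Set G) = ⊤) (k : ℕ) :
    ∃ (B : ℕ) (N : Subgroup G), N.FiniteIndex ∧
      ∀ (X : Type v) [MulAction G X] (x : X) (T : Type w) (H : SimpleGraph T)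
        (bag : T → Finset X), Deco S x k H bag →
        (MulAction.orbit G x).Finite ∧ (MulAction.orbit G x).ncard ≤ B ∧ ∀ g ∈ N, g • x = x := by
  classical
  obtain ⟨B, hB⟩ := orbit_bound.{u, v, w} htor S hgen k
  obtain ⟨n, π, hπ, -⟩ := Group.IsFinitelyPresented.out (G := G)
  have : Finite (G →* Equiv.Perm (Fin B)) :=
    Finite.of_injective (fun f : G →* Equiv.Perm (Fin B) => fun i => f (π (FreeGroup.of i)))
      fun f f' h => MonoidHom.ext fun g => by
        obtain ⟨y, rfl⟩ := hπ g
        exact DFunLike.congr_fun (FreeGroup.ext_hom (f.comp π) (f'.comp π) (congrFun h)) y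
  let Φ : G →* ((G →* Equiv.Perm (Fin B)) → Equiv.Perm (Fin B)) := MonoidHom.pi fun f => f
  refine ⟨B, Φ.ker, ⟨by rw [Subgroup.index_ker]; exact Nat.card_pos.ne'⟩,
    fun X _ x T H bag hd => ?_⟩
  obtain ⟨hfin, hcard⟩ := hB X x T H bag hd
  refine ⟨hfin, hcard, fun g hg => ?_⟩
  have := hfin.fintype
  obtain ⟨ι⟩ := Function.Embedding.nonempty_of_card_le
    (show Fintype.card (MulAction.orbit G x) ≤ Fintype.card (Fin B) by
      rwa [Fintype.card_fin, ← Nat.card_eq_fintype_card, Nat.card_coe_set_eq])
  let f : G →* Equiv.Perm (MulAction.orbit G x) := MulAction.toPermHom G _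
  have h1 : (Equiv.Perm.viaEmbeddingHom ι).comp f g = 1 :=
    congrFun (MonoidHom.mem_ker.1 hg) ((Equiv.Perm.viaEmbeddingHom ι).comp f)
  have h2 : f g = 1 := Equiv.Perm.viaEmbeddingHom_injective ι (by rw [map_one]; exact h1)
  exact congrArg Subtype.val
    (congrArg (fun e : Equiv.Perm (MulAction.orbit G x) => e ⟨x, MulAction.mem_orbit_self x⟩) h2)

/-- If every orbit has tree-width below the bound the image is finite. -/
theorem image_finite {X : Type v} [MulAction G X] (N : Subgroup G) (hN : N.FiniteIndex)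
    (h : ∀ x : X, ∀ g ∈ N, g • x = x) :
    Finite (MulAction.toPermHom G X).range ∧ (FaithfulSMul G X → Finite G) := by
  have hle : N ≤ (MulAction.toPermHom G X).ker := fun g hg =>
    MonoidHom.mem_ker.2 (Equiv.ext fun x => h x g hg)
  have := Subgroup.finiteIndex_of_le hle
  refine ⟨Nat.finite_of_card_ne_zero ?_, fun hf => ?_⟩
  · rw [← Subgroup.index_ker]
    exact Subgroup.FiniteIndex.index_ne_zero
  · have hbot : N = ⊥ := N.eq_bot_iff_forall.2 fun g hg =>
      hf.eq_of_smul_eq_smul fun x : X => (h x g hg).trans (one_smul G x).symm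
    have := hN
    subst hbot
    exact Subgroup.finite_quotient_of_finiteIndex (H := (⊥ : Subgroup G)) |> fun q =>
      @Finite.of_equiv _ _ q QuotientGroup.quotientBot.toEquiv

theorem ball_card {V : Type w} {H : SimpleGraph V} (hH : H.Connected) (m : ℕ)
    (hdeg : ∀ a, (H.neighborSet a).Finite ∧ (H.neighborSet a).ncard ≤ m) (a : V) :
    ∀ d : ℕ, ∃ F : Finset V, F.card ≤ (m + 1) ^ d ∧ ∀ b, H.dist a b ≤ d → b ∈ F := by
  classical
  intro d
  induction d with
  | zero =>
    exact ⟨{a}, by simp, fun b hb => by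
      simp [((hH a b).dist_eq_zero_iff.1 (Nat.le_zero.1 hb))]⟩
  | succ d ih =>
    obtain ⟨F, hFc, hF⟩ := ih
    refine ⟨F.biUnion fun b => insert b (hdeg b).1.toFinset, ?_, fun b hb => ?_⟩
    · refine (Finset.card_biUnion_le_card_mul _ _ (m + 1) fun b _ => ?_).trans
        (by rw [pow_succ]; exact Nat.mul_le_mul_right _ hFc)
      refine (Finset.card_insert_le _ _).trans (Nat.succ_le_succ ?_)
      rw [← Set.ncard_eq_toFinset_card _ (hdeg b).1]
      exact (hdeg b).2
    · obtain ⟨p, hp⟩ := hH.exists_walk_length_eq_dist a b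
      by_cases hnil : p.length = 0
      · obtain rfl := p.eq_of_length_eq_zero hnil
        exact Finset.mem_biUnion.2 ⟨a, hF a (by simp), Finset.mem_insert_self _ _⟩
      refine Finset.mem_biUnion.2 ⟨p.penultimate, hF _ ?_, Finset.mem_insert_of_mem ?_⟩
      · have h1 := SimpleGraph.dist_le p.dropLast
        rw [SimpleGraph.Walk.length_dropLast] at h1
        omega
      · rw [Set.Finite.mem_toFinset]
        exact p.adj_penultimate (SimpleGraph.Walk.not_nil_iff_lt_length.2 (by omega))

/-- Actions that move boundedly over a tree of bounded degree with bounded fibres have finite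
image. -/
theorem tree_like [Group.IsFinitelyPresented G] (htor : ∀ g : G, IsOfFinOrder g)
    (S : Finset G) (hgen : Subgroup.closure (S : Set G) = ⊤) {X : Type v} [MulAction G X]
    {V : Type w} (H : SimpleGraph V) (hH : H.IsTree) (m k D : ℕ)
    (hdeg : ∀ a, (H.neighborSet a).Finite ∧ (H.neighborSet a).ncard ≤ m) (pos : X → V)
    (hfib : ∀ a, ∃ F : Finset X, F.card ≤ k ∧ ∀ y, pos y = a → y ∈ F)
    (hmove : ∀ s ∈ S, ∀ y, H.dist (pos y) (pos (s • y)) ≤ D) :
    Finite (MulAction.toPermHom G X).range ∧ (FaithfulSMul G X → Finite G) := by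
  classical
  obtain ⟨B, N, hN, hB⟩ := exists_kernel.{u, v, w} htor S hgen ((m + 1) ^ D * k)
  choose F hFc hF using hfib
  choose Ball hBc hBall using fun a => ball_card hH.connected m hdeg a D
  refine image_finite N hN fun x g hg => (hB X x V H
    (fun a => ((Ball a).biUnion F).filter fun y => H.dist a (pos y) ≤ D) ?_).2.2 g hg
  have hmem : ∀ a y, H.dist a (pos y) ≤ D →
      y ∈ ((Ball a).biUnion F).filter fun y => H.dist a (pos y) ≤ D := fun a y h =>
    Finset.mem_filter.2 ⟨Finset.mem_biUnion.2 ⟨pos y, hBall a _ h, hF _ y rfl⟩, h⟩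
  refine ⟨hH, fun a => (Finset.card_filter_le _ _).trans
      ((Finset.card_biUnion_le_card_mul _ _ k fun b _ => hFc b).trans
        (Nat.mul_le_mul_right k (hBc a))),
    fun y _ => ⟨pos y, hmem _ y (by simp)⟩,
    fun y _ s hs => ⟨pos y, hmem _ y (by simp), hmem _ _ (hmove s hs y)⟩, fun y _ => ?_⟩
  have key : ∀ (d : ℕ) (a : V) (ha : a ∈ {t | y ∈ ((Ball t).biUnion F).filter
      fun z => H.dist t (pos z) ≤ D}), H.dist a (pos y) ≤ d →
      (H.induce _).Reachable ⟨a, ha⟩ ⟨pos y, hmem _ y (by simp)⟩ := by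
    intro d
    induction d with
    | zero =>
      intro a ha h
      obtain rfl := (hH.connected a (pos y)).dist_eq_zero_iff.1 (Nat.le_zero.1 h)
      exact .refl _
    | succ d ih =>
      intro a ha h
      obtain ⟨p, hp⟩ := hH.connected.exists_walk_length_eq_dist a (pos y)
      by_cases hne : a = pos y
      · subst hne
        exact .refl _
      · obtain ⟨b, hab, q, rfl⟩ := SimpleGraph.Walk.exists_eq_cons_of_ne hne p
        have hb : H.dist b (pos y) ≤ d := by
          have := SimpleGraph.dist_le q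
          rw [SimpleGraph.Walk.length_cons] at hp
          omega
        have hbD : H.dist b (pos y) ≤ D := by
          have h1 := SimpleGraph.dist_le q
          have h2 : H.dist a (pos y) ≤ D := (Finset.mem_filter.1 ha).2
          rw [SimpleGraph.Walk.length_cons] at hp
          omega
        exact SimpleGraph.Reachable.trans
          (SimpleGraph.Adj.reachable (G := H.induce _) (u := ⟨a, ha⟩) (v := ⟨b, hmem b y hbD⟩) hab)
          (ih b _ hb)
  rintro ⟨a, ha⟩ ⟨b, hb⟩
  exact (key _ a ha le_rfl).trans (key _ b hb le_rfl).symm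

end Vale.Agent.P192.Width
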