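import Mathlib

/-!
P192: rooted trees; a set of nodes closed under meets leaves pieces with at most two exits.
-/

namespace Vale.Agent.P192.Width

variable {T : Type*} {H : SimpleGraph T}

open scoped Classical in
/-- The neighbour one step nearer to the root, if there is one. -/
noncomputable def par (H : SimpleGraph T) (r t : T) : T :=
  if h : ∃ w, H.Adj w t ∧ H.dist r w + 1 = H.dist r t then h.choose else t

theorem unique_down (hH : H.IsTree) (r : T) {t w w' : T} (h : H.Adj w t)
    (hd : H.dist r w + 1 = H.dist r t) (h' : H.Adj w' t) (hd' : H.dist r w' + 1 = H.dist r t) :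
    w = w' := by
  obtain ⟨p, hp, hpl⟩ := hH.connected.exists_path_of_dist r t
  have key : ∀ v, H.Adj v t → H.dist r v + 1 = H.dist r t → v = p.penultimate := by
    intro v hv hvd
    refine hH.isAcyclic.eq_penultimate_of_adj_end hp hv.symm ?_
    obtain ⟨q, hq, hql⟩ := hH.connected.exists_path_of_dist r v
    by_contra hn
    have ht : t ∈ q.support :=
      hH.isAcyclic.mem_support_of_ne_mem_support_of_adj_of_isPath hq hp hv hn
    obtain ⟨q₀, q₁, hq₀⟩ := SimpleGraph.Walk.mem_support_iff_exists_append.1 ht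
    have h1 := SimpleGraph.dist_le q₀
    have h2 : q.length = q₀.length + q₁.length := by rw [hq₀, SimpleGraph.Walk.length_append]
    omega
  rw [key w h hd, key w' h' hd']

theorem par_eq (hH : H.IsTree) (r : T) {t w : T} (h : H.Adj w t)
    (hd : H.dist r w + 1 = H.dist r t) : par H r t = w := by
  classical
  have he : ∃ w, H.Adj w t ∧ H.dist r w + 1 = H.dist r t := ⟨w, h, hd⟩
  rw [par, dif_pos he]
  exact unique_down hH r he.choose_spec.1 he.choose_spec.2 h hd

theorem adj_cases (hH : H.IsTree) (r : T) {a b : T} (h : H.Adj a b) :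
    (par H r a = b ∧ H.dist r b + 1 = H.dist r a) ∨
      (par H r b = a ∧ H.dist r a + 1 = H.dist r b) := by
  rcases hH.dist_eq_dist_add_one_of_adj r h with e | e
  · exact Or.inl ⟨par_eq hH r h.symm e.symm, e.symm⟩
  · exact Or.inr ⟨par_eq hH r h e.symm, e.symm⟩

theorem dist_par (hH : H.IsTree) (r : T) {t : T} (ht : H.dist r t ≠ 0) :
    H.dist r (par H r t) + 1 = H.dist r t := by
  obtain ⟨p, hp⟩ := hH.connected.exists_walk_length_eq_dist r t
  have hlen : p.length ≠ 0 := hp ▸ ht
  have hadj : H.Adj p.penultimate t :=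
    p.adj_penultimate (SimpleGraph.Walk.not_nil_iff_lt_length.2 (by omega))
  have h1 : H.dist r p.penultimate ≤ p.length - 1 := by
    have := SimpleGraph.dist_le p.dropLast
    rwa [SimpleGraph.Walk.length_dropLast] at this
  rcases adj_cases hH r hadj with ⟨-, e⟩ | ⟨e, e'⟩
  · omega
  · rw [e, e']

theorem dist_iterate (hH : H.IsTree) (r t : T) :
    ∀ i, i ≤ H.dist r t → H.dist r ((par H r)^[i] t) = H.dist r t - i := by
  intro i
  induction i with
  | zero => simp
  | succ i ih =>
    intro hi
    rw [Function.iterate_succ_apply']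
    have h1 := ih (by omega)
    have h2 := dist_par hH r (t := (par H r)^[i] t) (by omega)
    omega

/-- a is an ancestor of t. -/
def Anc (H : SimpleGraph T) (r a t : T) : Prop :=
  H.dist r a ≤ H.dist r t ∧ (par H r)^[H.dist r t - H.dist r a] t = a

theorem anc_refl (r t : T) : Anc H r t t := ⟨le_rfl, by simp⟩

theorem anc_iterate (hH : H.IsTree) (r t : T) {i : ℕ} (hi : i ≤ H.dist r t) :
    Anc H r ((par H r)^[i] t) t := by
  have h := dist_iterate hH r t i hi
  refine ⟨by omega, ?_⟩
  rw [h, Nat.sub_sub_self hi]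

theorem anc_root (hH : H.IsTree) (r t : T) : Anc H r r t := by
  refine ⟨by simp, ?_⟩
  rw [SimpleGraph.dist_self, Nat.sub_zero]
  have h := dist_iterate hH r t _ le_rfl
  rw [Nat.sub_self] at h
  exact ((hH.connected r _).dist_eq_zero_iff.1 h).symm

theorem anc_trans {r a b c : T} (h1 : Anc H r a b) (h2 : Anc H r b c) : Anc H r a c := by
  refine ⟨h1.1.trans h2.1, ?_⟩
  rw [show H.dist r c - H.dist r a = (H.dist r b - H.dist r a) + (H.dist r c - H.dist r b) by
    have := h1.1; have := h2.1; omega, Function.iterate_add_apply, h2.2, h1.2]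

theorem anc_chain {r a b t : T} (ha : Anc H r a t) (hb : Anc H r b t)
    (h : H.dist r a ≤ H.dist r b) : Anc H r a b := by
  refine ⟨h, ?_⟩
  have e := congrArg ((par H r)^[H.dist r b - H.dist r a]) hb.2
  rw [← Function.iterate_add_apply, show H.dist r b - H.dist r a + (H.dist r t - H.dist r b) =
    H.dist r t - H.dist r a by have := hb.1; omega] at e
  exact e.symm.trans ha.2

theorem anc_total {r a b t : T} (ha : Anc H r a t) (hb : Anc H r b t) :
    Anc H r a b ∨ Anc H r b a :=
  (le_total (H.dist r a) (H.dist r b)).imp (anc_chain ha hb) (anc_chain hb ha)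

theorem anc_antisymm {r a b : T} (h1 : Anc H r a b) (h2 : Anc H r b a) : a = b := by
  have e : H.dist r b - H.dist r a = 0 := by have := h2.1; omega
  have h := h1.2
  rw [e] at h
  exact h.symm

theorem anc_child {r a t w : T} (hw : par H r t = w) (hd : H.dist r w + 1 = H.dist r t)
    (h : Anc H r a t) (hne : a ≠ t) : Anc H r a w := by
  have hlt : H.dist r a < H.dist r t := by
    refine lt_of_le_of_ne h.1 fun e => hne ?_
    have h2 := h.2
    rw [e, Nat.sub_self] at h2
    exact h2.symm
  refine ⟨by omega, ?_⟩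
  have h2 := h.2
  rw [show H.dist r t - H.dist r a = (H.dist r w - H.dist r a) + 1 by omega,
    Function.iterate_succ_apply, hw] at h2
  exact h2

theorem anc_of_par {r t w : T} (hw : par H r t = w) (hd : H.dist r w + 1 = H.dist r t) :
    Anc H r w t :=
  ⟨by omega, by rw [show H.dist r t - H.dist r w = 1 by omega]; simpa using hw⟩

theorem exists_meet (hH : H.IsTree) (r a b : T) :
    ∃ c, Anc H r c a ∧ Anc H r c b ∧ ∀ u, Anc H r u a → Anc H r u b → Anc H r u c := by
  classical
  have hex : ∃ i, i ≤ H.dist r a ∧ Anc H r ((par H r)^[i] a) b :=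
    ⟨H.dist r a, le_rfl, by
      have h := (anc_root hH r a).2
      rw [SimpleGraph.dist_self, Nat.sub_zero] at h
      rw [h]; exact anc_root hH r b⟩
  obtain ⟨hi, hib⟩ := Nat.find_spec hex
  refine ⟨_, anc_iterate hH r a hi, hib, fun u hua hub => ?_⟩
  refine anc_chain hua (anc_iterate hH r a hi) ?_
  have hle : Nat.find hex ≤ H.dist r a - H.dist r u :=
    Nat.find_min' hex ⟨Nat.sub_le _ _, by rw [hua.2]; exact hub⟩
  rw [dist_iterate hH r a _ hi]
  have := hua.1
  omega

/-- Every finite set of nodes lies in a set of quadratic size whose complement has pieces with at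
most two exits. -/
theorem exists_two_exit (hH : H.IsTree) (N : Finset T) :
    ∃ M : Finset T, N ⊆ M ∧ M.card ≤ N.card * N.card ∧ ∀ t, t ∉ M → ∃ m₁ m₂, ∀ w m,
      Relation.ReflTransGen (fun a b => H.Adj a b ∧ a ∉ M ∧ b ∉ M) t w → H.Adj w m → m ∈ M →
        m = m₁ ∨ m = m₂ := by
  classical
  rcases N.eq_empty_or_nonempty with rfl | ⟨r, -⟩
  · exact ⟨∅, subset_rfl, by simp, fun t _ => ⟨t, t, fun w m _ _ hm => absurd hm (by simp)⟩⟩
  choose μ hμa hμb hμ using exists_meet hH r
  have hμself : ∀ a, μ a a = a := fun a =>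
    anc_antisymm (hμa a a) (hμ a a a (anc_refl r a) (anc_refl r a))
  let M := (N ×ˢ N).image fun q => μ q.1 q.2
  refine ⟨M, fun a ha => Finset.mem_image.2 ⟨(a, a), Finset.mk_mem_product ha ha, hμself a⟩,
    Finset.card_image_le.trans (Finset.card_product N N).le, fun t ht => ?_⟩
  let St : T → T → Prop := fun a b => H.Adj a b ∧ a ∉ M ∧ b ∉ M
  have hsymm : ∀ {a b}, Relation.ReflTransGen St a b → Relation.ReflTransGen St b a := by
    intro a b h
    induction h with
    | refl => exact .refl
    | tail _ hbc ih => exact ih.head ⟨hbc.1.symm, hbc.2.2, hbc.2.1⟩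
  obtain ⟨u, hu, humin⟩ : ∃ u, Relation.ReflTransGen St t u ∧
      ∀ w, Relation.ReflTransGen St t w → H.dist r u ≤ H.dist r w := by
    have hex : ∃ n, ∃ u, Relation.ReflTransGen St t u ∧ H.dist r u = n := ⟨_, t, .refl, rfl⟩
    obtain ⟨u, hu, hun⟩ := Nat.find_spec hex
    exact ⟨u, hu, fun w hw => hun ▸ Nat.find_min' hex ⟨w, hw, rfl⟩⟩
  have huM : u ∉ M := by
    rcases Relation.ReflTransGen.cases_tail hu with rfl | ⟨_, _, h⟩
    · exact ht
    · exact h.2.2
  have hinv : ∀ w, Relation.ReflTransGen St u w →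
      Anc H r u w ∧ ∀ c, Anc H r u c → Anc H r c w → c ∉ M := by
    intro w hw
    induction hw with
    | refl => exact ⟨anc_refl r u, fun c h1 h2 => anc_antisymm h1 h2 ▸ huM⟩
    | @tail a b hua hab ih =>
      rcases adj_cases hH r hab.1 with ⟨e, ed⟩ | ⟨e, ed⟩
      · have hne : u ≠ a := by
          rintro rfl
          have := humin b ((hu.trans hua).tail hab)
          omega
        exact ⟨anc_child e ed ih.1 hne,
          fun c h1 h2 => ih.2 c h1 (anc_trans h2 (anc_of_par e ed))⟩
      · refine ⟨anc_trans ih.1 (anc_of_par e ed), fun c h1 h2 => ?_⟩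
        by_cases hc : c = b
        · exact hc ▸ hab.2.2
        · exact ih.2 c h1 (anc_child e ed h2 hc)
  have hpar : ∀ w m, Relation.ReflTransGen St t w → par H r w = m →
      H.dist r m + 1 = H.dist r w → m ∈ M → w = u := by
    intro w m hw e ed hm
    by_contra hne
    obtain ⟨h1, h2⟩ := hinv w ((hsymm hu).trans hw)
    exact h2 m (anc_child e ed h1 (Ne.symm hne)) (anc_of_par e ed) hm
  let Ch : T → Prop := fun m =>
    ∃ w, Relation.ReflTransGen St t w ∧ par H r m = w ∧ H.dist r w + 1 = H.dist r m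
  have hchild : ∀ m m', m ∈ M → m' ∈ M → Ch m → Ch m' → m = m' := by
    rintro m m' hm hm' ⟨w, hw, e, ed⟩ ⟨w', hw', e', ed'⟩
    by_contra hne
    obtain ⟨h1, h2⟩ := hinv w ((hsymm hu).trans hw)
    obtain ⟨h1', h2'⟩ := hinv w' ((hsymm hu).trans hw')
    have hum := anc_trans h1 (anc_of_par e ed)
    have hum' := anc_trans h1' (anc_of_par e' ed')
    by_cases hc : Anc H r m m'
    · exact h2' m hum (anc_child e' ed' hc hne) hm
    by_cases hc' : Anc H r m' m
    · exact h2 m' hum' (anc_child e ed hc' (Ne.symm hne)) hm'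
    obtain ⟨⟨a, b⟩, hab, rfl⟩ := Finset.mem_image.1 hm
    obtain ⟨⟨a', b'⟩, hab', rfl⟩ := Finset.mem_image.1 hm'
    simp only at *
    have hcM : μ a a' ∈ M := Finset.mem_image.2
      ⟨(a, a'), Finset.mk_mem_product (Finset.mem_product.1 hab).1 (Finset.mem_product.1 hab').1,
        rfl⟩
    have hca : Anc H r (μ a a') (μ a b) := by
      rcases anc_total (hμa a a') (hμa a b) with h | h
      · exact h
      · rcases anc_total (anc_trans h (hμb a a')) (hμa a' b') with h' | h'
        · exact absurd h' hc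
        · exact absurd h' hc'
    have hne' : μ a a' ≠ μ a b := by
      intro h
      rcases anc_total (h ▸ hμb a a') (hμa a' b') with h' | h'
      · exact hc h'
      · exact hc' h'
    exact h2 _ (hμ a a' u (anc_trans hum (hμa a b)) (anc_trans hum' (hμa a' b')))
      (anc_child e ed hca hne') hcM
  let m₂ := if h : ∃ m, m ∈ M ∧ Ch m then h.choose else t
  refine ⟨par H r u, m₂, fun w m hw hadj hm => ?_⟩
  rcases adj_cases hH r hadj with ⟨e, ed⟩ | ⟨e, ed⟩
  · exact Or.inl (hpar w m hw e ed hm ▸ e.symm)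
  · have hex : ∃ m, m ∈ M ∧ Ch m := ⟨m, hm, w, hw, e, ed⟩
    exact Or.inr (by
      simp only [m₂, dif_pos hex]
      exact hchild m _ hm hex.choose_spec.1 ⟨w, hw, e, ed⟩ hex.choose_spec.2)

end Vale.Agent.P192.Width
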