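import Vale.Agent.P192.Width.Root
import Vale.Agent.P192.Thin.Spheres

/-!
P192: an orbit graph of bounded tree-width and large size contains long chains of nested connected
sets with boundaries of bounded size.
-/

namespace Vale.Agent.P192.Width

open Vale.Agent.P192.Thin Relation

variable {G X T : Type*} [Group G] [MulAction G X]

/-- A decomposition of the orbit of x along a tree, with bags of at most k points. -/
structure Deco (S : Finset G) (x : X) (k : ℕ) (H : SimpleGraph T) (bag : T → Finset X) : Prop where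
  tree : H.IsTree
  card : ∀ t, (bag t).card ≤ k
  cover : ∀ y ∈ MulAction.orbit G x, ∃ t, y ∈ bag t
  edge : ∀ y ∈ MulAction.orbit G x, ∀ s ∈ S, ∃ t, y ∈ bag t ∧ s • y ∈ bag t
  conn : ∀ y ∈ MulAction.orbit G x, (H.induce {t | y ∈ bag t}).Preconnected

variable {S : Finset G} {x : X} {k : ℕ} {H : SimpleGraph T} {bag : T → Finset X}

theorem walk_inside {p : T → Prop} {a b : {t | p t}} (w : (H.induce {t | p t}).Walk a b) :
    ReflTransGen (fun u v => H.Adj u v ∧ p u ∧ p v) (a : T) b := by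
  induction w with
  | nil => exact .refl
  | @cons u v w h q ih => exact ih.head ⟨h, u.2, v.2⟩

theorem Deco.reach (hd : Deco S x k H bag) {y : X} (hy : y ∈ MulAction.orbit G x) {a b : T}
    (ha : y ∈ bag a) (hb : y ∈ bag b) :
    ReflTransGen (fun u v => H.Adj u v ∧ y ∈ bag u ∧ y ∈ bag v) a b := by
  obtain ⟨w⟩ := hd.conn y hy ⟨a, ha⟩ ⟨b, hb⟩
  exact walk_inside w

theorem smul_orbit {y : X} (hy : y ∈ MulAction.orbit G x) (g : G) :
    g • y ∈ MulAction.orbit G x := by
  rw [← MulAction.orbit_eq_iff.2 hy]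
  exact MulAction.mem_orbit y g

/-- Splitting: a large connected set contains a connected set that avoids a given finite set, is
still large, and has a boundary of bounded size. -/
theorem sep (hd : Deco S x k H bag) (D : Set X) (hDO : D ⊆ MulAction.orbit G x)
    (hconn : ∀ a ∈ D, ∀ b ∈ D, ReflTransGen (GStep S D) a b) (F : Finset X)
    (hbd : ∀ z ∈ D, (∃ s ∈ S, s • z ∉ D ∨ s⁻¹ • z ∉ D) → z ∈ F)
    (hFO : ↑F ⊆ MulAction.orbit G x) (hFD : ∃ f ∈ F, f ∈ D) (c g : ℕ) (hc : F.card ≤ c)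
    (W : Finset X) (hW : ↑W ⊆ D) (hWc : c * c * k + 2 * S.card * (c * c * k) * g + 1 ≤ W.card) :
    ∃ (D' : Set X) (T₀ W' : Finset X), D' ⊆ D ∧ (∀ f ∈ F, f ∉ D') ∧ D'.Nonempty ∧
      (∀ a ∈ D', ∀ b ∈ D', ReflTransGen (GStep S D') a b) ∧ T₀.card ≤ 4 * S.card * k ∧
      ↑T₀ ⊆ MulAction.orbit G x ∧ (∀ z ∈ D', (∃ s ∈ S, s • z ∉ D' ∨ s⁻¹ • z ∉ D') → z ∈ T₀) ∧
      ↑W' ⊆ D' ∧ g ≤ W'.card := by
  classical
  choose ν hν using hd.cover
  let N : Finset T := F.attach.image fun f => ν f.1 (hFO f.2)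
  obtain ⟨M, hNM, hMc, hM⟩ := exists_two_exit hd.tree N
  let Z : Finset X := M.biUnion bag
  have hFZ : ∀ f ∈ F, f ∈ Z := fun f hf => Finset.mem_biUnion.2
    ⟨ν f (hFO hf), hNM (Finset.mem_image.2 ⟨⟨f, hf⟩, Finset.mem_attach _ _, rfl⟩), hν f _⟩
  have hNc : N.card ≤ c := Finset.card_image_le.trans (by rwa [Finset.card_attach])
  have hMc' : M.card ≤ c * c := hMc.trans (Nat.mul_le_mul hNc hNc)
  have hZc : Z.card ≤ c * c * k :=
    (Finset.card_biUnion_le_card_mul _ _ _ fun t _ => hd.card t).trans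
      (Nat.mul_le_mul_right k hMc')
  let SS : Finset G := S ∪ S.image fun s => s⁻¹
  have hSS : SS.card ≤ 2 * S.card :=
    (Finset.card_union_le _ _).trans (by
      have := Finset.card_image_le (s := S) (f := fun s => s⁻¹)
      omega)
  let A : Finset X := ((SS ×ˢ Z).image fun q => q.1 • q.2).filter fun a => a ∈ D ∧ a ∉ Z
  have hAc : A.card ≤ 2 * S.card * (c * c * k) :=
    (Finset.card_filter_le _ _).trans (Finset.card_image_le.trans
      ((Finset.card_product _ _).le.trans (Nat.mul_le_mul hSS hZc)))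
  let E : Set X := {z | z ∈ D ∧ z ∉ Z}
  let comp : X → Set X := fun a => {z | ReflTransGen (GStep S E) a z}
  have hcompE : ∀ a ∈ E, ∀ z ∈ comp a, z ∈ E := by
    intro a ha z hz
    rcases ReflTransGen.cases_tail hz with rfl | ⟨_, _, h⟩
    · exact ha
    · exact h.2.1
  obtain ⟨f, hfF, hfD⟩ := hFD
  have hreach : ∀ y ∈ E, ∃ a ∈ A, y ∈ comp a := by
    rintro y ⟨hyD, hyZ⟩
    suffices h : ∀ z, ReflTransGen (GStep S D) y z →
        (∃ a ∈ A, y ∈ comp a) ∨ (z ∉ Z ∧ y ∈ comp z) by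
      rcases h f (hconn y hyD f hfD) with h | h
      · exact h
      · exact absurd (hFZ f hfF) h.1
    intro z hz
    induction hz with
    | refl => exact Or.inr ⟨hyZ, .refl⟩
    | @tail u v _ huv ih =>
      rcases ih with h | ⟨huZ, hyu⟩
      · exact Or.inl h
      obtain ⟨hu, hv, s, hs, hsv⟩ := huv
      by_cases hvZ : v ∈ Z
      · refine Or.inl ⟨u, ?_, hyu⟩
        refine Finset.mem_filter.2 ⟨?_, hu, huZ⟩
        rcases hsv with h | h
        · exact Finset.mem_image.2 ⟨(s⁻¹, v), Finset.mk_mem_product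
            (Finset.mem_union_right _ (Finset.mem_image_of_mem _ hs)) hvZ, by simp [← h]⟩
        · exact Finset.mem_image.2 ⟨(s, v), Finset.mk_mem_product
            (Finset.mem_union_left _ hs) hvZ, h⟩
      · exact Or.inr ⟨hvZ, hyu.head ⟨⟨hv, hvZ⟩, ⟨hu, huZ⟩, s, hs, hsv.symm⟩⟩
  obtain ⟨a, haA, hag⟩ : ∃ a ∈ A, g ≤ (W.filter fun z => z ∈ comp a).card := by
    by_contra hno
    push Not at hno
    have hsub : W.filter (fun z => z ∉ Z) ⊆
        A.biUnion fun a => W.filter fun z => z ∈ comp a := fun z hz => by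
      obtain ⟨hzW, hzZ⟩ := Finset.mem_filter.1 hz
      obtain ⟨a, ha, hza⟩ := hreach z ⟨hW hzW, hzZ⟩
      exact Finset.mem_biUnion.2 ⟨a, ha, Finset.mem_filter.2 ⟨hzW, hza⟩⟩
    have h1 := (Finset.card_le_card hsub).trans
      (Finset.card_biUnion_le_card_mul _ _ g fun a ha => (hno a ha).le)
    have h2 : (W.filter fun z => z ∈ Z).card ≤ Z.card :=
      Finset.card_le_card fun z hz => (Finset.mem_filter.1 hz).2
    have h3 := Finset.card_filter_add_card_filter_not (s := W) (fun z => z ∈ Z)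
    have h4 : A.card * g ≤ 2 * S.card * (c * c * k) * g := Nat.mul_le_mul_right g hAc
    omega
  have haE : a ∈ E := (Finset.mem_filter.1 haA).2
  have hin : ∀ z ∈ comp a, ReflTransGen (GStep S (comp a)) a z := by
    intro z hz
    induction hz with
    | refl => exact .refl
    | @tail u v hu huv ih => exact ih.tail ⟨hu, hu.tail huv, huv.2.2⟩
  -- the node set of the piece
  obtain ⟨t₀, ht₀⟩ := hd.cover a (hDO haE.1)
  let St : T → T → Prop := fun u v => H.Adj u v ∧ u ∉ M ∧ v ∉ M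
  have hout : ∀ {t}, ∀ z ∈ comp a, z ∈ bag t → t ∉ M := fun z hz hzt htM =>
    (hcompE a haE z hz).2 (Finset.mem_biUnion.2 ⟨_, htM, hzt⟩)
  have hsame : ∀ z ∈ comp a, ∀ t t', z ∈ bag t → z ∈ bag t' → ReflTransGen St t t' :=
    fun z hz t t' h h' => ReflTransGen.mono
      (fun u v e => ⟨e.1, hout z hz e.2.1, hout z hz e.2.2⟩) _ _
      (hd.reach (hDO (hcompE a haE z hz).1) h h')
  have hnodes : ∀ z ∈ comp a, ∀ t, z ∈ bag t → ReflTransGen St t₀ t := by
    intro z hz
    induction hz with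
    | refl => exact fun t ht => hsame a .refl t₀ t ht₀ ht
    | @tail u v hu huv ih =>
      intro t ht
      obtain ⟨huE, hvE, s, hs, hsv⟩ := huv
      obtain ⟨t', h1, h2⟩ : ∃ t', u ∈ bag t' ∧ v ∈ bag t' := by
        rcases hsv with h | h
        · obtain ⟨t', h1, h2⟩ := hd.edge u (hDO huE.1) s hs
          exact ⟨t', h1, h ▸ h2⟩
        · obtain ⟨t', h1, h2⟩ := hd.edge v (hDO hvE.1) s hs
          exact ⟨t', h ▸ h2, h1⟩
      exact (ih t' h1).trans (hsame v (hu.tail ⟨huE, hvE, s, hs, hsv⟩) t' t h2 ht)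
  have ht₀M : t₀ ∉ M := hout a .refl ht₀
  obtain ⟨m₁, m₂, hm⟩ := hM t₀ ht₀M
  let T₀ : Finset X := ((SS ×ˢ (bag m₁ ∪ bag m₂)).image fun q => q.1 • q.2).filter
    fun z => z ∈ MulAction.orbit G x
  refine ⟨comp a, T₀, W.filter fun z => z ∈ comp a, fun z hz => (hcompE a haE z hz).1,
    fun f hf hfc => (hcompE a haE f hfc).2 (hFZ f hf), ⟨a, .refl⟩, ?_, ?_,
    fun z hz => (Finset.mem_filter.1 hz).2, ?_, fun z hz => (Finset.mem_filter.1 hz).2, hag⟩
  · intro u hu v hv
    have hsym : ∀ {p q}, ReflTransGen (GStep S (comp a)) p q →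
        ReflTransGen (GStep S (comp a)) q p := by
      intro p q h
      induction h with
      | refl => exact .refl
      | tail _ h ih => exact ih.head (gstep_symm h)
    exact (hsym (hin u hu)).trans (hin v hv)
  · refine (Finset.card_filter_le _ _).trans (Finset.card_image_le.trans
      ((Finset.card_product _ _).le.trans ?_))
    have := Finset.card_union_le (bag m₁) (bag m₂)
    have := hd.card m₁
    have := hd.card m₂
    calc SS.card * (bag m₁ ∪ bag m₂).card ≤ 2 * S.card * (2 * k) :=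
          Nat.mul_le_mul hSS (by omega)
      _ = 4 * S.card * k := by ring
  · intro z hz hzout
    obtain ⟨hzD, hzZ⟩ := hcompE a haE z hz
    have key : ∀ e ∈ SS, e • z ∉ comp a → (∃ t, z ∈ bag t ∧ e • z ∈ bag t) → z ∈ T₀ := by
      intro e he hez ⟨t, hzt, hezt⟩
      have hesD : e • z ∈ D := by
        by_contra h
        refine hzZ (hFZ z (hbd z hzD ?_))
        rcases Finset.mem_union.1 he with he | he
        · exact ⟨e, he, Or.inl h⟩
        · obtain ⟨s, hs, rfl⟩ := Finset.mem_image.1 he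
          exact ⟨s, hs, Or.inr h⟩
      have hesZ : e • z ∈ Z := by
        by_contra h
        refine hez (ReflTransGen.tail hz ⟨⟨hzD, hzZ⟩, ⟨hesD, h⟩, ?_⟩)
        rcases Finset.mem_union.1 he with he | he
        · exact ⟨e, he, Or.inl rfl⟩
        · obtain ⟨s, hs, rfl⟩ := Finset.mem_image.1 he
          exact ⟨s, hs, Or.inr (smul_inv_smul s z)⟩
      obtain ⟨m, hmM, hm'⟩ := Finset.mem_biUnion.1 hesZ
      have hwalk : ∀ t', ReflTransGen (fun u v => H.Adj u v ∧ e • z ∈ bag u ∧ e • z ∈ bag v) t t' →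
          (e • z ∈ bag m₁ ∪ bag m₂) ∨ ReflTransGen St t₀ t' := by
        intro t' h
        induction h with
        | refl => exact Or.inr (hnodes z hz t hzt)
        | @tail u v _ huv ih =>
          rcases ih with h | h
          · exact Or.inl h
          by_cases hv : v ∈ M
          · rcases hm u v h huv.1 hv with rfl | rfl
            · exact Or.inl (Finset.mem_union_left _ huv.2.2)
            · exact Or.inl (Finset.mem_union_right _ huv.2.2)
          · refine Or.inr (h.tail ⟨huv.1, ?_, hv⟩)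
            rcases ReflTransGen.cases_tail h with rfl | ⟨_, _, h'⟩
            · exact ht₀M
            · exact h'.2.2
      refine Finset.mem_filter.2 ⟨Finset.mem_image.2 ⟨(e⁻¹, e • z), Finset.mk_mem_product ?_ ?_,
        inv_smul_smul e z⟩, hDO hzD⟩
      · rcases Finset.mem_union.1 he with he | he
        · exact Finset.mem_union_right _ (Finset.mem_image_of_mem _ he)
        · obtain ⟨s, hs, rfl⟩ := Finset.mem_image.1 he
          rw [inv_inv]
          exact Finset.mem_union_left _ hs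
      · rcases hwalk m (hd.reach (smul_orbit (hDO hzD) e) hezt hm') with h | h
        · exact h
        · rcases ReflTransGen.cases_tail h with h | ⟨_, _, h'⟩
          · exact absurd (h ▸ hmM) ht₀M
          · exact absurd hmM h'.2.2
    obtain ⟨s, hs, h | h⟩ := hzout
    · exact key s (Finset.mem_union_left _ hs) h (hd.edge z (hDO hzD) s hs)
    · refine key s⁻¹ (Finset.mem_union_right _ (Finset.mem_image_of_mem _ hs)) h ?_
      obtain ⟨t, h1, h2⟩ := hd.edge _ (smul_orbit (hDO hzD) s⁻¹) s hs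
      exact ⟨t, by rwa [smul_inv_smul] at h2, h1⟩

/-- The size that guarantees a chain of a given length. -/
def need (s k q K : ℕ) : ℕ → ℕ
  | 0 => 1
  | J + 1 => q * K * (q * K) * k + 2 * s * (q * K * (q * K) * k) * need s k q K J + 1

/-- A member of a chain. -/
def Piece (S : Finset G) (x : X) (K : ℕ) (D : Set X) (T₀ : Finset X) : Prop :=
  D ⊆ MulAction.orbit G x ∧ (∀ a ∈ D, ∀ b ∈ D, ReflTransGen (GStep S D) a b) ∧ D.Nonempty ∧
    T₀.card ≤ K ∧ ↑T₀ ⊆ MulAction.orbit G x ∧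
    ∀ z ∈ D, (∃ s ∈ S, s • z ∉ D ∨ s⁻¹ • z ∉ D) → z ∈ T₀

theorem chain (hd : Deco S x k H bag) (Q : Finset G) (hQ : (1 : G) ∈ Q) :
    ∀ (J : ℕ) (D₀ : Set X) (T₀ : Finset X), Piece S x (4 * S.card * k + 1) D₀ T₀ →
      (∃ f ∈ T₀, f ∈ D₀) → (∀ D T₁, Piece S x (4 * S.card * k + 1) D T₁ →
        (∀ f ∈ T₀, f ∉ D) → D ⊆ D₀ → ∃ f ∈ T₁, f ∈ D) →
      ∀ W : Finset X, ↑W ⊆ D₀ → need S.card k Q.card (4 * S.card * k + 1) J ≤ W.card →
      ∃ (D : ℕ → Set X) (Tb : ℕ → Finset X), ∀ j < J,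
        Piece S x (4 * S.card * k + 1) (D j) (Tb j) ∧ D j ⊆ D₀ ∧
        (∀ q ∈ Q, ∀ f ∈ T₀, q • f ∉ D j) ∧
        ∀ i < j, D j ⊆ D i ∧ ∀ q ∈ Q, ∀ f ∈ Tb i, q • f ∉ D j := by
  classical
  intro J
  induction J with
  | zero => exact fun D₀ T₀ _ _ _ _ _ _ => ⟨fun _ => ∅, fun _ => ∅, fun j hj => absurd hj (by omega)⟩
  | succ J ih =>
    intro D₀ T₀ ⟨h1, h2, _, h4, h5, h6⟩ ⟨f, hf, hfD⟩ hnext W hW hWc
    let F : Finset X := (Q ×ˢ T₀).image fun q => q.1 • q.2
    have hFc : F.card ≤ Q.card * (4 * S.card * k + 1) :=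
      Finset.card_image_le.trans ((Finset.card_product _ _).le.trans (Nat.mul_le_mul_left _ h4))
    have hTF : ∀ f ∈ T₀, f ∈ F := fun f hf =>
      Finset.mem_image.2 ⟨(1, f), Finset.mk_mem_product hQ hf, one_smul G f⟩
    obtain ⟨D', T', W', hsub, havoid, hne, hconn', hT'c, hT'O, hT', hW', hW'c⟩ :=
      sep hd D₀ h1 h2 F (fun z hz h => hTF z (h6 z hz h))
        (fun z hz => by
          obtain ⟨q, hq, rfl⟩ := Finset.mem_image.1 hz
          exact smul_orbit (h5 (Finset.mem_product.1 hq).2) q.1)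
        ⟨f, hTF f hf, hfD⟩ _ (need S.card k Q.card (4 * S.card * k + 1) J) hFc W hW hWc
    have hP : Piece S x (4 * S.card * k + 1) D' T' :=
      ⟨hsub.trans h1, hconn', hne, by omega, hT'O, hT'⟩
    have hav : ∀ f ∈ T₀, f ∉ D' := fun f hf => havoid f (hTF f hf)
    have havQ : ∀ q ∈ Q, ∀ f ∈ T₀, q • f ∉ D' := fun q hq f hf =>
      havoid _ (Finset.mem_image.2 ⟨(q, f), Finset.mk_mem_product hq hf, rfl⟩)
    obtain ⟨D, Tb, hD⟩ := ih D' T' hP (hnext D' T' hP hav hsub)
      (fun D₁ T₁ hP₁ _ h => hnext D₁ T₁ hP₁ (fun f hf hfD₁ => hav f hf (h hfD₁)) (h.trans hsub))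
      W' hW' hW'c
    refine ⟨fun j => if j = 0 then D' else D (j - 1), fun j => if j = 0 then T' else Tb (j - 1), ?_⟩
    intro j hj
    rcases j with _ | j
    · simp only [if_pos]
      exact ⟨hP, hsub, havQ, fun i hi => absurd hi (by omega)⟩
    simp only [Nat.succ_ne_zero, if_false, Nat.add_sub_cancel]
    obtain ⟨g1, g2, g3, g4⟩ := hD j (by omega)
    refine ⟨g1, g2.trans hsub, fun q hq f hf h => havQ q hq f hf (g2 h), fun i hi => ?_⟩
    rcases i with _ | i
    · simp only [if_pos]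
      exact ⟨g2, g3⟩
    simp only [Nat.succ_ne_zero, if_false, Nat.add_sub_cancel]
    exact g4 i (by omega)

end Vale.Agent.P192.Width
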